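import Vale.Agent.P139Z.Semi
import Vale.Agent.P139Z.XBg

/-!
Block LIN, auxiliary file: the real form of the complexified system and the symmetry modes.
-/

open Set Filter Topology MeasureTheory Complex
open scoped NNReal ENNReal ComplexConjugate ContDiff

namespace Vale.Agent.P139Z.Lin

variable {d k : ℕ}

open XW

theorem ev_add (F G : XW d k) (y : Eu d) : ev (F + G) y = ev F y + ev G y := by
  simp only [← evCLM_apply, map_add]

theorem ev_sub (F G : XW d k) (y : Eu d) : ev (F - G) y = ev F y - ev G y := by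
  simp only [← evCLM_apply, map_sub]

theorem ev_smul (c : ℂ) (F : XW d k) (y : Eu d) : ev (c • F) y = c * ev F y := by
  simp only [← evCLM_apply, map_smul, smul_eq_mul]

theorem ev_sum {ι : Type*} (s : Finset ι) (F : ι → XW d k) (y : Eu d) :
    ev (∑ i ∈ s, F i) y = ∑ i ∈ s, ev (F i) y := by
  simp only [← evCLM_apply, map_sum]

theorem norm_st (F : XW d k) : ‖st F‖ = ‖F‖ := by rw [norm_eq, norm_eq, nrmX_st]

/-- The real form inside the complexified space. -/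
noncomputable def emb : XW d k →L[ℝ] XW d k × XW d k := (ContinuousLinearMap.id ℝ _).prod st

theorem emb_apply (F : XW d k) : emb F = (F, st F) := rfl

theorem norm_emb (F : XW d k) : ‖emb F‖ = ‖F‖ := by
  rw [emb_apply, Prod.norm_mk, norm_st, max_self]

theorem T2_apply (Λ : ℂ) (s : ℝ) (x : XW d k × XW d k) :
    T2 Λ s x = (T Λ 1 s x.1, T (conj Λ) (-1) s x.2) := rfl

theorem B2_apply (V U : XW d k) (x : XW d k × XW d k) :
    B2 V U x = ((-I) • (conv V x.1 + conv U x.2), I • (conv (st U) x.1 + conv V x.2)) := rfl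

theorem T2_emb (Λ : ℂ) (s : ℝ) (F : XW d k) : T2 Λ s (emb F) = emb (T Λ 1 s F) := by
  rw [T2_apply, emb_apply, emb_apply, st_T]

theorem T2_T2 (Λ : ℂ) (s : ℝ) (x : XW d k × XW d k) : T2 Λ s (T2 Λ (-s) x) = x := by
  simp only [T2_apply, T_add, add_neg_cancel, T_zero]

theorem T2_zero (Λ : ℂ) (x : XW d k × XW d k) : T2 Λ 0 x = x := by
  simp only [T2_apply, T_zero]

variable {m : ℕ} (B : Bg d m)

theorem st_V1h (hm : 1 ≤ m) : st (B.V1h k) = B.V1h k := by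
  refine ev_injective fun y => ?_
  rw [ev_st, B.ev_V1h hm, pot1]
  simp

theorem B2_emb (hm : 1 ≤ m) (F : XW d k) :
    B2 (B.V1h k) (B.V2h k) (emb F) = emb (B.Bop k F) := by
  rw [B2_apply, emb_apply, emb_apply, Bg.Bop, st_smul, map_add, st_conv, st_conv, st_st,
    st_V1h B hm, add_comm (conv (st (B.V2h k)) F)]
  simp

theorem ev_Bop (hm : 1 ≤ m) (F : XW d k) (y : Eu d) : ev (B.Bop k F) y =
    -I * (pot1 m (evf B.Q y) * ev F y + pot2 m (evf B.Q y) * conj (ev F y)) := by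
  rw [Bg.Bop, ev_smul, ev_add, ev_conv, ev_conv, ev_st, B.ev_V1h hm, B.ev_V2h]

theorem Bop_smul (c : ℝ) (F : XW d k) : B.Bop k ((c : ℂ) • F) = (c : ℂ) • B.Bop k F := by
  simp only [Bg.Bop, st_smul, map_smul, conj_ofReal, ← smul_add, smul_comm (c : ℂ)]

variable {B}

/-- Mild solutions are orbits of the semigroup. -/
theorem mild_eq (hm : 1 ≤ m) {S} (hS : IsSemi B.Λ (B.V1h k) (B.V2h k) S) {τ : ℝ}
    {Z : ℝ → XW d k} (hZ : B.IsMild k τ Z) {s : ℝ} (hs : s ∈ Icc 0 τ) :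
    S s (emb (Z 0)) = emb (T B.Λ 1 s (Z s)) := by
  rw [← hS.uniq τ (fun t => emb (Z t)) (fun t ht => ?_) s hs, T2_emb]
  rw [T2_emb, B2_emb B hm, T2_emb]
  exact emb.hasFDerivAt.comp_hasDerivWithinAt t (hZ t ht)

/-- An eigenmode of the real-linear generator is an eigenvector of the semigroup. -/
theorem semi_mode (hm : 1 ≤ m) {S} (hS : IsSemi B.Λ (B.V1h k) (B.V2h k) S) {W : XW d k} {a : ℝ}
    (h : ∀ s, HasDerivAt (fun t => T B.Λ 1 (-t) W) (T B.Λ 1 (-s) (B.Bop k W - (a : ℂ) • W)) s)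
    {s : ℝ} (hs : 0 ≤ s) : S s (emb W) = (Real.exp (a * s) : ℂ) • emb W := by
  have hZ : B.IsMild k s fun t => (Real.exp (a * t) : ℂ) • T B.Λ 1 (-t) W := by
    intro t _
    have h1 : HasDerivAt (fun t : ℝ => (Real.exp (a * t) : ℂ)) ((Real.exp (a * t) * a : ℝ) : ℂ) t := by
      have := ((hasDerivAt_id t).const_mul a).exp
      simp only [id, mul_one] at this
      exact this.ofReal_comp
    have h2 := (h1.smul (h t)).hasDerivWithinAt (s := Icc 0 s)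
    refine h2.congr_deriv ?_
    simp only [map_smul, T_add, add_neg_cancel, T_zero, Bop_smul, map_sub, smul_sub, smul_smul,
      ofReal_mul]
    abel
  have h3 := mild_eq hm hS hZ (s := s) ⟨hs, le_rfl⟩
  simp only [mul_zero, Real.exp_zero, ofReal_one, one_smul, neg_zero, T_zero, map_smul, T_add,
    add_neg_cancel] at h3
  rw [h3, emb_apply, emb_apply, st_smul, conj_ofReal, Prod.smul_mk]

theorem deriv_of_eq (hm : 1 ≤ m) (hk : 2 ≤ k) {W : XW d k} {a : ℝ}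
    (h : ∀ y, linF m B.Λ (evf B.Q) (ev W) (fun z => conj (ev W z)) y = a * ev W y) (s : ℝ) :
    HasDerivAt (fun t => T B.Λ 1 (-t) W) (T B.Λ 1 (-s) (B.Bop k W - (a : ℂ) • W)) s := by
  have h1 := hasDerivAt_T hk B.Λ 1 W ((a : ℂ) • W - B.Bop k W) (fun y => by
    rw [evL_eq hk, ev_sub, ev_smul, ev_Bop B hm, ← h y, linF]
    push_cast
    ring) (-s)
  have h2 := h1.scomp s (hasDerivAt_neg s)
  refine h2.congr_deriv ?_
  rw [neg_one_smul, ← map_neg, neg_sub]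

theorem Bop_IQ (hm : 1 ≤ m) : B.Bop k (I • B.Qh k) = B.Nh k := by
  refine ev_injective fun y => ?_
  rw [ev_Bop B hm, ev_smul, B.ev_Nh, B.ev_Qh, pot1, pot2]
  obtain ⟨n, rfl⟩ : ∃ n, m = n + 1 := ⟨m - 1, by omega⟩
  have h1 : evf B.Q y * conj (evf B.Q y) = (‖evf B.Q y‖ : ℂ) ^ 2 := by
    rw [mul_conj, normSq_eq_norm_sq]; push_cast; rfl
  simp only [Nat.add_sub_cancel, map_mul, conj_I]
  push_cast
  linear_combination (-(n + 1 : ℂ) * (‖evf B.Q y‖ : ℂ) ^ (2 * n) * evf B.Q y) * h1 -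
    ((n + 1 + 1 : ℂ) * (‖evf B.Q y‖ : ℂ) ^ (2 * (n + 1)) * evf B.Q y -
      (n + 1 : ℂ) * (‖evf B.Q y‖ : ℂ) ^ (2 * n) * evf B.Q y ^ 2 * conj (evf B.Q y)) * I_sq

theorem semi_IQ (hm : 1 ≤ m) (hk : 2 ≤ k) {S} (hS : IsSemi B.Λ (B.V1h k) (B.V2h k) S) {s : ℝ}
    (hs : 0 ≤ s) : S s (emb (I • B.Qh k)) = (Real.exp (0 * s) : ℂ) • emb (I • B.Qh k) := by
  refine semi_mode hm hS (fun t => ?_) hs
  have h := (B.hasDerivAt_T_Qh hk t).const_smul I
  simp only [map_smul]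
  refine h.congr_deriv ?_
  rw [Bop_IQ hm, map_smul, smul_smul]
  simp

theorem ev_DQh : ev (B.DQh k) = evf B.DQ := ev_mk _ _

theorem ev_Xh (i : Fin d) : ev (B.Xh k i) = evf fun ξ => I * ξ i * B.Q ξ := ev_mk _ _

theorem semi_DQ (hm : 1 ≤ m) (hk : 2 ≤ k) {S} (hS : IsSemi B.Λ (B.V1h k) (B.V2h k) S) {s : ℝ}
    (hs : 0 ≤ s) : S s (emb (B.DQh k)) = (Real.exp (1 * s) : ℂ) • emb (B.DQh k) :=
  semi_mode hm hS (deriv_of_eq hm hk fun y => by rw [ev_DQh, B.modeD]; simp) hs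

theorem semi_X (hm : 1 ≤ m) (hk : 2 ≤ k) {S} (hS : IsSemi B.Λ (B.V1h k) (B.V2h k) S) (i : Fin d)
    {s : ℝ} (hs : 0 ≤ s) : S s (emb (B.Xh k i)) = (Real.exp (1 / 2 * s) : ℂ) • emb (B.Xh k i) :=
  semi_mode hm hS (deriv_of_eq hm hk fun y => by rw [ev_Xh, B.modeX]; simp) hs

variable (B k) in
/-- Complex combinations of the symmetry modes. -/
noncomputable def Phi : (ℂ × ℂ × (Fin d → ℂ)) →ₗ[ℂ] XW d k × XW d k where
  toFun c := c.1 • emb (I • B.Qh k) + c.2.1 • emb (B.DQh k) + ∑ i, c.2.2 i • emb (B.Xh k i)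
  map_add' a b := by
    simp only [Prod.fst_add, Prod.snd_add, Pi.add_apply, add_smul, Finset.sum_add_distrib]
    abel
  map_smul' t a := by
    simp only [Prod.smul_fst, Prod.smul_snd, Pi.smul_apply, smul_eq_mul, mul_smul, smul_add,
      Finset.smul_sum, RingHom.id_apply]

theorem Phi_apply (c : ℂ × ℂ × (Fin d → ℂ)) : Phi k B c =
    c.1 • emb (I • B.Qh k) + c.2.1 • emb (B.DQh k) + ∑ i, c.2.2 i • emb (B.Xh k i) := rfl

theorem Phi_fst (c : ℂ × ℂ × (Fin d → ℂ)) : (Phi k B c).1 =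
    c.1 • (I • B.Qh k) + c.2.1 • B.DQh k + ∑ i, c.2.2 i • B.Xh k i := by
  simp only [Phi_apply, Prod.fst_add, Prod.smul_fst, Prod.fst_sum, emb_apply]

theorem Phi_snd (c : ℂ × ℂ × (Fin d → ℂ)) : (Phi k B c).2 =
    c.1 • st (I • B.Qh k) + c.2.1 • st (B.DQh k) + ∑ i, c.2.2 i • st (B.Xh k i) := by
  simp only [Phi_apply, Prod.snd_add, Prod.smul_snd, Prod.snd_sum, emb_apply]

theorem ev_Phi_fst (c : ℂ × ℂ × (Fin d → ℂ)) (y : Eu d) :
    ev (Phi k B c).1 y = B.eF c.1 c.2.1 c.2.2 y := by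
  simp only [Phi_fst, ev_add, ev_smul, ev_sum, B.ev_Qh, ev_DQh, ev_Xh, Bg.eF]

theorem ev_Phi_snd (c : ℂ × ℂ × (Fin d → ℂ)) (y : Eu d) :
    ev (Phi k B c).2 y = B.eG c.1 c.2.1 c.2.2 y := by
  simp only [Phi_snd, ev_add, ev_smul, ev_sum, ev_st, B.ev_Qh, ev_DQh, ev_Xh, Bg.eG]

theorem semi_Phi (hm : 1 ≤ m) (hk : 2 ≤ k) {S} (hS : IsSemi B.Λ (B.V1h k) (B.V2h k) S) {s : ℝ}
    (hs : 0 ≤ s) {x : XW d k × XW d k} (hx : x ∈ LinearMap.range (Phi k B)) :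
    S s x ∈ LinearMap.range (Phi k B) := by
  obtain ⟨c, rfl⟩ := hx
  refine ⟨(c.1 * (Real.exp (0 * s) : ℂ), c.2.1 * (Real.exp (1 * s) : ℂ),
    fun i => c.2.2 i * (Real.exp (1 / 2 * s) : ℂ)), ?_⟩
  simp only [Phi_apply, map_add, map_smul (S s), map_sum, semi_IQ hm hk hS hs, semi_DQ hm hk hS hs,
    semi_X hm hk hS _ hs, smul_smul]

end Vale.Agent.P139Z.Lin
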